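import Vale.Agent.P287Z.O.N.Ess
import Vale.Agent.P287Z.T.Hq

/-!
# `Hom(F X, F Y[k])` in terms of matrices (P287, block T1)
-/

set_option linter.unusedSectionVars false

open CategoryTheory Limits MvPolynomial Pretriangulated

namespace Vale.Agent.P287Z.O.N

open V L T

variable {W : MvPolynomial (Fin 6) ℂ} {m n : ℕ}

/-- the shift, without a change of the sign of the differential -/
def sh' (Y : GMF W n) (k : ℤ) : GMF W n where
  p i := Y.p i - 3 * k
  d := Y.d
  deg i j := by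
    have := Y.deg i j
    rwa [show 3 + (Y.p j - 3 * k) - (Y.p i - 3 * k) = 3 + Y.p j - Y.p i by ring]
  sq := Y.sq

/-- the parity operator -/
noncomputable def epsM (Y : GMF W n) : Matrix (Fin n) (Fin n) (MvPolynomial (Fin 6) ℂ) :=
  Matrix.diagonal fun i => if Even (Y.p i) then 1 else -1

theorem epsM_sq (Y : GMF W n) : epsM Y * epsM Y = 1 := by
  rw [epsM, Matrix.diagonal_mul_diagonal, ← Matrix.diagonal_one]
  congr 1
  funext i
  split_ifs <;> simp

theorem epsM_d (Y : GMF W n) : epsM Y * Y.d = -(Y.d * epsM Y) := by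
  ext1 i j
  rw [epsM, Matrix.diagonal_mul, Matrix.neg_apply, Matrix.mul_diagonal]
  by_cases h : 2 ∣ 3 + Y.p j - Y.p i
  · by_cases hi : Even (Y.p i)
    · have hj : ¬ Even (Y.p j) := by
        rw [even_iff_two_dvd] at hi ⊢
        omega
      rw [if_pos hi, if_neg hj]
      ring
    · have hj : Even (Y.p j) := by
        rw [even_iff_two_dvd] at hi ⊢
        omega
      rw [if_neg hi, if_pos hj]
      ring
  · rw [hga_odd_eq_zero (Y.deg i j) h]
    simp

theorem epsM_hg (Y : GMF W n) (c : ℤ) (i j : Fin n) :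
    Hg (Y.p j - c - (Y.p i - c)) (epsM Y i j) := by
  by_cases h : i = j
  · subst h
    rw [epsM, Matrix.diagonal_apply_eq, sub_self]
    split_ifs
    · exact hga_one
    · exact hga_neg hga_one
  · rw [epsM, Matrix.diagonal_apply_ne _ h]
    exact hga_zero _

variable [FrOK W]

theorem fd_sh' (Y : GMF W n) (k : ℤ) : Nonempty (FD (sh' Y k) ≅ (FD Y)⟦k⟧) := by
  rcases Int.even_or_odd k with hk | hk
  · exact H962.shiftSt W Y (sh' Y k) k (fun _ => rfl) (by
      rw [Int.negOnePow_even k hk]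
      simp [sh'])
  · obtain ⟨e⟩ := H962.shiftSt W Y (H157.shG Y k) k (fun _ => rfl) rfl
    have hd : (H157.shG Y k).d = -Y.d := by
      change (k.negOnePow : ℤ) • Y.d = _
      rw [Int.negOnePow_odd k hk]
      simp
    have h1 : Cl (sh' Y k) (H157.shG Y k) (epsM Y) := by
      refine ⟨fun i j => epsM_hg Y (3 * k) i j, ?_⟩
      rw [hd]
      change -Y.d * epsM Y = epsM Y * Y.d
      rw [epsM_d, Matrix.neg_mul]
    have h2 : Cl (H157.shG Y k) (sh' Y k) (epsM Y) := by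
      refine ⟨fun i j => epsM_hg Y (3 * k) i j, ?_⟩
      rw [hd]
      change Y.d * epsM Y = epsM Y * -Y.d
      rw [Matrix.mul_neg, epsM_d, neg_neg]
    have h3 : ∀ {E F : GMF W n} (a : Cl E F (epsM Y)) (b : Cl F E (epsM Y)),
        FDmap a ≫ FDmap b = 𝟙 _ := by
      intro E F a b
      rw [← H962.FDmap_comp a b (cl_mul a b), ← H962.FDmap_one E (cl_one E)]
      congr 1
      exact epsM_sq Y
    exact ⟨(⟨FDmap h1, FDmap h2, h3 h1 h2, h3 h2 h1⟩ : FD (sh' Y k) ≅ FD (H157.shG Y k)) ≪≫ e⟩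

omit [FrOK W] in
theorem cl_iff (X : GMF W m) (Y : GMF W n) (k : ℤ)
    (g : Matrix (Fin n) (Fin m) (MvPolynomial (Fin 6) ℂ)) :
    Cl X (sh' Y k) g ↔ g ∈ ZM X Y (3 * k) := by
  have h : ∀ i l, X.p l - (sh' Y k).p i = 3 * k + X.p l - Y.p i := fun i l => by
    change X.p l - (Y.p i - 3 * k) = _
    ring
  unfold Cl
  simp only [h]
  rfl

omit [FrOK W] in
theorem nh_iff (X : GMF W m) (Y : GMF W n) (k : ℤ)
    (g : Matrix (Fin n) (Fin m) (MvPolynomial (Fin 6) ℂ)) :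
    Nh X (sh' Y k) g ↔ g ∈ BM X Y (3 * k) := by
  have h : ∀ i l, X.p l - (sh' Y k).p i - 3 = 3 * k - 3 + X.p l - Y.p i := fun i l => by
    change X.p l - (Y.p i - 3 * k) - 3 = _
    ring
  unfold Nh
  simp only [h]
  rfl

/-- **Orlov's theorem, full faithfulness** -/
theorem hom_equiv (hW : W.IsHomogeneous 3) (h0 : W ≠ 0) (X : GMF W m) (Y : GMF W n) (k : ℤ) :
    Nonempty (HQ (ZM X Y (3 * k)) (BM X Y (3 * k)) ≃ₗ[ℂ] (FD X ⟶ (FD Y)⟦k⟧)) := by
  obtain ⟨e⟩ := fd_sh' Y k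
  let α : ZM X Y (3 * k) →ₗ[ℂ] (FD X ⟶ (FD Y)⟦k⟧) :=
    { toFun := fun g => FDmap ((cl_iff X Y k g.1).2 g.2) ≫ e.hom
      map_add' := fun g g' => by
        rw [← Preadditive.add_comp, ← H962.FDmap_add _ _ ((cl_iff X Y k _).2 (g + g').2)]
      map_smul' := fun c g => by
        rw [RingHom.id_apply, ← Linear.smul_comp,
          ← H962.FDmap_smul c _ ((cl_iff X Y k _).2 (c • g).2)] }
  refine hq_equiv' α ?_ ?_
  · intro φ
    obtain ⟨f, hf, h⟩ := fullSt' hW h0 X (sh' Y k) (φ ≫ e.inv)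
    refine ⟨⟨f, (cl_iff X Y k f).1 hf⟩, ?_⟩
    change FDmap hf ≫ e.hom = φ
    rw [h, Category.assoc, e.inv_hom_id, Category.comp_id]
  · intro g
    rw [← nh_iff, ← faithSt' hW h0 X (sh' Y k) g.1 ((cl_iff X Y k g.1).2 g.2)]
    change FDmap ((cl_iff X Y k g.1).2 g.2) ≫ e.hom = 0 ↔ _
    rw [← cancel_mono e.inv, Category.assoc, e.hom_inv_id, Category.comp_id, zero_comp]

end Vale.Agent.P287Z.O.N
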