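import Vale.Agent.P287Z.O.N.Orth
import Vale.Agent.P287Z.O.H443.Ok
import Vale.Agent.P287Z.O.H157.Ess
import Vale.Agent.P287Z.O.H962.Orl
import Vale.Agent.P287Z.O.H962.Cone
import Vale.Agent.P287Z.O.H962.Shift
import Vale.Agent.P287Z.O.H319.Eis
import Vale.Agent.P287Z.O.H335.ExtY
import Vale.Agent.P287Z.O.H503.Kz4
import Vale.Agent.P287Z.O.H599.B7
import Vale.Agent.P287Z.O.L.KosC

/-!
# The Kuznetsov component is the image of Orlov's functor (P287, block T1)
-/

set_option linter.unusedSectionVars false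

open CategoryTheory Limits MvPolynomial Pretriangulated

namespace Vale.Agent.P287Z.O.N

open V L

section general

variable {𝒟 : Type 1} [Category.{1} 𝒟] [Preadditive 𝒟] [HasZeroObject 𝒟]
    [HasShift 𝒟 ℤ] [∀ n : ℤ, (shiftFunctor 𝒟 n).Additive] [Pretriangulated 𝒟]

/-- the left orthogonal of a class stable under shifts -/
theorem triCl_orth (A : 𝒟 → Prop) (hA : ∀ Y (n : ℤ), A Y → A (Y⟦n⟧)) :
    TriCl (fun U : 𝒟 => ∀ Y, A Y → ∀ f : U ⟶ Y, f = 0) where
  iso := fun X X' e h Y hY f => by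
    rw [← cancel_epi e.hom, h Y hY (e.hom ≫ f), comp_zero]
  zero := fun X hX Y _ f => hX.eq_of_src _ _
  shift := fun X n h Y hY f => by
    apply (shiftFunctor 𝒟 (-n)).map_injective
    rw [Functor.map_zero]
    let e := (shiftFunctorCompIsoId 𝒟 n (-n) (by ring)).app X
    rw [← cancel_epi e.inv, comp_zero]
    exact h _ (hA Y (-n) hY) _
  ext₂ := fun T hT h1 h3 Y hY f => by
    obtain ⟨g, hg⟩ := T.yoneda_exact₂ hT f (h1 Y hY _)
    rw [hg, h3 Y hY g, comp_zero]

theorem triCl_hull (G : 𝒟 → Prop) :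
    TriCl (fun U : 𝒟 => ∀ I : 𝒟 → Prop, TriCl I → (∀ X, G X → I X) → I U) where
  iso := fun _ _ e h I hI hG => hI.iso _ _ e (h I hI hG)
  zero := fun X hX _ hI _ => hI.zero X hX
  shift := fun X n h I hI hG => hI.shift X n (h I hI hG)
  ext₂ := fun T hT h1 h3 I hI hG => hI.ext₂ T hT (h1 I hI hG) (h3 I hI hG)

open ObjectProperty in
/-- the extension product of two semiorthogonal triangulated subcategories -/
theorem triCl_prod [IsTriangulated 𝒟] {B A : ObjectProperty 𝒟} (hB : TriCl B) (hA : TriCl A)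
    (h : ∀ U V, B U → A V → ∀ f : U ⟶ V, f = 0) : TriCl (extensionProduct B A) where
  iso := fun X X' e hX => (extensionProduct B A).prop_of_iso e hX
  zero := fun X hX => ⟨X, _, _, _, _, contractible_distinguished X, hB.zero X hX,
    hA.zero _ (isZero_zero 𝒟)⟩
  shift := fun X n ⟨U, V, f, g, k, hT, hU, hV⟩ =>
    ⟨_, _, _, _, _, Triangle.shift_distinguished _ hT n, hB.shift _ n hU, hA.shift _ n hV⟩
  ext₂ := fun T hT h1 h3 => by
    have hBB : extensionProduct B B ≤ B := fun X ⟨U, V, f, g, k, hT, hU, hV⟩ =>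
      hB.ext₂ _ hT hU hV
    have hAA : extensionProduct A A ≤ A := fun X ⟨U, V, f, g, k, hT, hU, hV⟩ =>
      hA.ext₂ _ hT hU hV
    have hAB : extensionProduct A B ≤ extensionProduct B A := by
      intro X ⟨V, U, f, g, k, hT, hV, hU⟩
      have := hasBinaryBiproducts_of_finite_biproducts 𝒟
      obtain ⟨e, -⟩ := exists_iso_binaryBiproduct_of_distTriang _ hT (h _ _ hU (hA.shift _ 1 hV) k)
      refine (extensionProduct B A).prop_of_iso (X := U ⊞ V) (biprod.braiding U V ≪≫ e.symm) ?_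
      exact ⟨U, V, _, _, _, binaryBiproductTriangle_distinguished U V, hU, hV⟩
    have h0 : extensionProduct (extensionProduct B A) (extensionProduct B A) T.obj₂ :=
      ⟨_, _, _, _, _, hT, h1, h3⟩
    rw [extensionProduct_assoc, ← extensionProduct_assoc A B A] at h0
    have h2 := monotone_extensionProduct_right B (monotone_extensionProduct_left A hAB) _ h0
    rw [extensionProduct_assoc B A A, ← extensionProduct_assoc B B] at h2
    exact monotone_extensionProduct_left _ hBB _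
      (monotone_extensionProduct_right _ hAA _ h2)

end general

variable {W : MvPolynomial (Fin 6) ℂ} [FrOK W]

/-- `𝒪(s)`, `s ≥ 3`, from the image of `F` and `𝒪, …, 𝒪(s - 1)` -/
theorem big (hW : W.IsHomogeneous 3) (hW0 : W ≠ 0) {I : DerivedCategory (Coh W) → Prop}
    (hI : TriCl I) (hF : ∀ {n : ℕ} (E : GMF W n), I (FD E)) {s : ℤ} (hs : 3 ≤ s)
    (hO : ∀ m, 0 ≤ m → m < s → I (OD W m)) : I (OD W s) := by
  have hA : AcySt W := acySt (hg_ten_of_isHomogeneous W hW) hW0
  obtain ⟨q, E, e, hq, hWq, hp, hd⟩ := H443.exists_kos5 hW (-2 * s)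
  obtain ⟨j⟩ := H443.k_res hs hW0 hq hWq hp hd
  have hE := H443.minF hp hd
  let P : ℤ → ℤ → Prop := fun k x => (-2 * k - 2 * s ≤ x ∧ k ≤ -1) ∧ x ≤ 0
  have hP : Cv P := by
    intro k l r x y z h1 h2 h3 h4 h5 h6
    simp only [P] at *
    omega
  have hQ : Cv fun _ => (2 * 0 < ·) := by
    intro k l r x y z h1 h2 h3 h4 h5 h6
    omega
  have i3 : I ((QPi W).obj (TQ hE (fun _ => (2 * 0 < ·)) hQ)) := by
    refine hI.iso _ _ ((QPi W).mapIso (TQiso hE (2 * 0 < ·) hQ)).symm ?_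
    exact H157.TriCl.unshift hI (-1) (hI.iso _ _ (fdIso hA E) (hF E))
  have i1 : I ((QPi W).obj (TQ hE P hP)) := by
    refine H408.dev_complex hI
      (((piA W).mapHomologicalComplex (ComplexShape.up ℤ)).obj (TQ hE P hP)) (-bd E 0) 0 ?_ ?_ ?_
    · rw [CochainComplex.isStrictlyGE_iff]
      intro k hk
      refine (piA W).map_isZero (TX_isZero E _ k fun i hi => ?_)
      have h1 := bd_le E 0 i
      have h2 : E.p i - 3 * k ≤ 0 := hi.2
      have h3 := neg_abs_le (E.p i)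
      have h5 := abs_nonneg (E.p i)
      have h6 := abs_nonneg (2 * (0 : ℤ))
      lia
    · rw [CochainComplex.isStrictlyLE_iff]
      intro k hk
      refine (piA W).map_isZero (TX_isZero E _ k fun i hi => ?_)
      have h2 : k ≤ -1 := hi.1.2
      lia
    · intro k _ _
      refine sgFr hI (qsel E (P k) k) fun i m hm => ?_
      unfold qsel at hm
      split_ifs at hm with h
      · obtain ⟨⟨h1, h2⟩, h3⟩ := h
        exact hO m (by omega) (by omega)
      · omega
  have i2 : I ((QPi W).obj (TQ hE (H443.KS s) (H443.cv_KS s))) := by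
    refine TQ_ext hE P (fun _ => (2 * 0 < ·)) (H443.KS s) hP hQ (H443.cv_KS s) ?_ ?_ ?_ ?_ hI i1 i3
    · intro k l x y h1 h2 h3 h4
      simp only [P, H443.KS] at *
      omega
    · intro k l x y h1 h2 h3 h4
      simp only [H443.KS] at *
      omega
    · intro k a h1 h2
      simp only [P] at *
      omega
    · intro k a
      simp only [P, H443.KS]
      omega
  exact H157.Sg.of_single hI (-1) (hI.iso _ _ j i2)

theorem all_OD (hW : W.IsHomogeneous 3) (hW0 : W ≠ 0) {I : DerivedCategory (Coh W) → Prop}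
    (hI : TriCl I) (hF : ∀ {n : ℕ} (E : GMF W n), I (FD E))
    (hO : ∀ m, 0 ≤ m → m ≤ 2 → I (OD W m)) (m : ℤ) : I (OD W m) := by
  have key : ∀ k : ℕ, ∀ m : ℤ, 0 ≤ m → m < k → I (OD W m) := by
    intro k
    induction k with
    | zero => intro m h1 h2; omega
    | succ k ih =>
      intro m h1 h2
      by_cases h : m ≤ 2
      · exact hO m h1 h
      · exact big hW hW0 hI hF (by omega) fun m' h3 h4 => ih m' h3 (by omega)
  refine H408.ohull W hI (fun n hn => key (n.toNat + 1) n hn (by omega))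
    (kosSt W (hg_ten_of_isHomogeneous W hW) hW0) m

variable (W) in
/-- the Kuznetsov component -/
def Ku (Y : DerivedCategory (Coh W)) : Prop :=
  ∀ a : ℤ, 0 ≤ a → a ≤ 2 → ∀ (k : ℤ) (f : OD W a ⟶ Y⟦k⟧), f = 0

theorem Ku.shift {Y : DerivedCategory (Coh W)} (h : Ku W Y) (n : ℤ) : Ku W (Y⟦n⟧) := by
  intro a h1 h2 k f
  let e := (shiftFunctorAdd' (DerivedCategory (Coh W)) n k (n + k) rfl).app Y
  rw [← cancel_mono e.inv, zero_comp]
  exact h a h1 h2 (n + k) _

theorem Ku.iso {Y Y' : DerivedCategory (Coh W)} (h : Ku W Y) (e : Y ≅ Y') : Ku W Y' := by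
  intro a h1 h2 k f
  rw [← cancel_mono ((shiftFunctor _ k).mapIso e).inv, zero_comp]
  exact h a h1 h2 k _

theorem homSt' (hW : W.IsHomogeneous 3) (h0 : W ≠ 0) : HomSt W :=
  H335.homSt (H335.hg_hz.1 (show Hg (2 * 3) W from hg_ten_of_isHomogeneous W hW)) h0

theorem extSt' (hW : W.IsHomogeneous 3) (h0 : W ≠ 0) : ExtSt W :=
  H335.extSt (H335.hg_hz.1 (show Hg (2 * 3) W from hg_ten_of_isHomogeneous W hW)) h0

theorem fullSt' (hW : W.IsHomogeneous 3) (h0 : W ≠ 0) : FullSt W :=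
  have hW' := hg_ten_of_isHomogeneous W hW
  H599.fullSt (projSt W hW') (acySt hW' h0) (H319.nullSt hW' h0) (H319.nullSt' hW' h0)
    (H319.eisSt hW' h0) (homSt' hW h0) (extSt' hW h0)

theorem faithSt' (hW : W.IsHomogeneous 3) (h0 : W ≠ 0) : FaithSt W :=
  have hW' := hg_ten_of_isHomogeneous W hW
  H599.faithSt (projSt W hW') (acySt hW' h0) (H319.nullSt hW' h0) (H319.nullSt' hW' h0)
    (H319.eisSt hW' h0) (homSt' hW h0) (extSt' hW h0)

theorem ku_FD (hW : W.IsHomogeneous 3) (h0 : W ≠ 0) {n : ℕ} (E : GMF W n) : Ku W (FD E) := by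
  intro a h1 h2 k f
  apply (shiftFunctor (DerivedCategory (Coh W)) (-k)).map_injective
  rw [Functor.map_zero]
  let e := (shiftFunctorCompIsoId (DerivedCategory (Coh W)) k (-k) (by ring)).app (FD E)
  rw [← cancel_mono e.hom, zero_comp]
  exact orth (hg_ten_of_isHomogeneous W hW) h0 (homSt' hW h0) (extSt' hW h0) h1 h2 E (-k) _

/-- **Orlov's theorem, essential surjectivity onto the Kuznetsov component** -/
theorem ess (hW : W.IsHomogeneous 3) (h0 : W ≠ 0) (Y : DerivedCategory (Coh W))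
    (hY : (DerivedCategory.TStructure.t (C := Coh W)).bounded Y) (hK : Ku W Y) :
    ∃ (n : ℕ) (E : GMF W n), Nonempty (FD E ≅ Y) := by
  have hW' := hg_ten_of_isHomogeneous W hW
  let G : DerivedCategory (Coh W) → Prop := fun X => ∃ a : ℤ, 0 ≤ a ∧ a ≤ 2 ∧ X = OD W a
  let B : ObjectProperty (DerivedCategory (Coh W)) := fun U =>
    ∀ I : DerivedCategory (Coh W) → Prop, TriCl I → (∀ X, G X → I X) → I U
  have hB : TriCl B := triCl_hull G
  have hA : TriCl (H157.Im W) := H157.im_triCl W (fullSt' hW h0) (H962.coneSt W) (H962.shiftSt W)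
  have hBK : ∀ U V, B U → Ku W V → ∀ f : U ⟶ V, f = 0 := by
    intro U V hU hV
    refine hU _ (triCl_orth (Ku W) fun Y n h => h.shift n) ?_ V hV
    rintro X ⟨a, h1, h2, rfl⟩ Z hZ f
    let e := (shiftFunctorZero (DerivedCategory (Coh W)) ℤ).app Z
    rw [← cancel_mono e.inv, zero_comp]
    exact hZ a h1 h2 0 _
  have hIK : ∀ V, H157.Im W V → Ku W V := fun V ⟨n, E, ⟨e⟩⟩ => (ku_FD hW h0 E).iso e
  have hJ : TriCl (ObjectProperty.extensionProduct B (H157.Im W)) :=
    triCl_prod hB hA fun U V hU hV => hBK U V hU (hIK V hV)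
  have hF : ∀ {n : ℕ} (E : GMF W n), ObjectProperty.extensionProduct B (H157.Im W) (FD E) :=
    fun E => ⟨_, _, _, _, _, contractible_distinguished₁ (FD E), hB.zero _ (isZero_zero _),
      ⟨_, E, ⟨Iso.refl _⟩⟩⟩
  have hO : ∀ m, ObjectProperty.extensionProduct B (H157.Im W) (OD W m) :=
    all_OD hW h0 hJ hF fun m h1 h2 => ⟨_, _, _, _, _, contractible_distinguished (OD W m),
      fun I _ hG => hG _ ⟨m, h1, h2, rfl⟩, hA.zero _ (isZero_zero _)⟩
  obtain ⟨U, V, f, g, k, hT, hU, hV⟩ := H157.all_bounded hJ (fun q => H408.sgFr W hJ hO q)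
    (acySt hW' h0) (H503.gldSt hW' h0) hF Y hY
  have hf : f = 0 := hBK U Y hU hK f
  have hk : k = 0 := by
    obtain ⟨u, hu⟩ := Triangle.coyoneda_exact₁ _ hT (𝟙 (U⟦(1 : ℤ)⟧)) (by
      change 𝟙 _ ≫ f⟦(1 : ℤ)⟧' = 0
      rw [hf, Functor.map_zero, comp_zero])
    have h1 : u = 0 := hBK _ V (hB.shift U 1 hU) (hIK V hV) u
    have h2 : 𝟙 (U⟦(1 : ℤ)⟧) = 0 := hu.trans (by rw [h1]; exact zero_comp)
    rw [← Category.comp_id k, h2, comp_zero]
  have h1 : IsIso g := (Triangle.isZero₁_iff_isIso₂ _ hT).1 ((Triangle.isZero₁_iff _ hT).2 ⟨hf, hk⟩)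
  exact hA.iso _ _ (asIso g).symm hV

end Vale.Agent.P287Z.O.N
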