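import Vale.Agent.P287Z.O.L.LG
import Vale.Agent.P287Z.O.H408.Fr

/-!
# Complexes with a position dependent selection of generators (P287, block T1)
-/

set_option linter.unusedSectionVars false

open CategoryTheory Limits MvPolynomial Pretriangulated

namespace Vale.Agent.P287Z.O.N

open V L

variable {W : MvPolynomial (Fin 6) ℂ} {n : ℕ}

/-- minimal factorizations: no entries of degree `< 2` -/
def MinF (E : GMF W n) : Prop := ∀ i j, 3 + E.p j - E.p i < 2 → E.d i j = 0

/-- convex selections -/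
def Cv (P : ℤ → ℤ → Prop) : Prop :=
  ∀ k l r x y z : ℤ, k + 1 = l → l + 1 = r → z + 2 ≤ y → y + 2 ≤ x → P k x → P r z → P l y

theorem hgM_q (E : GMF W n) (P Q : ℤ → Prop) [DecidablePred P] [DecidablePred Q] (k l : ℤ)
    (h : k + 1 = l) : HgM (qsel E P k) (qsel E Q l)
      (mask (fun i => Q (E.p i - 3 * l)) (fun j => P (E.p j - 3 * k)) E.d) :=
  hgM_mask2 E E P Q k l 3 E.d E.deg (by rw [← h]; ring)

variable [FrOK W]

/-- the differential between two selections -/
noncomputable def Qd (E : GMF W n) (P Q : ℤ → Prop) [DecidablePred P] [DecidablePred Q] (k l : ℤ)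
    (h : k + 1 = l) : TX E P k ⟶ TX E Q l := matA W _ (hgM_q E P Q k l h)

omit [FrOK W] in
theorem d_zero {E : GMF W n} (hE : MinF E) {k l : ℤ} (h : k + 1 = l) (i j : Fin n)
    (hij : ¬ (E.p i - 3 * l + 2 ≤ E.p j - 3 * k)) : E.d i j = 0 :=
  hE i j (by rw [← h] at hij; linarith)

theorem Qd_Qd {E : GMF W n} (hE : MinF E) (P Q R : ℤ → Prop) [DecidablePred P] [DecidablePred Q]
    [DecidablePred R] (hP : ∀ x y z : ℤ, z + 2 ≤ y → y + 2 ≤ x → P x → R z → Q y) (k l r : ℤ)
    (h : k + 1 = l) (h' : l + 1 = r) : Qd E P Q k l h ≫ Qd E Q R l r h' = 0 := by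
  refine (matA_comp W _ _ _ _).trans (matA_eq_zero W _ _ fun i j => ?_)
  have h1 : (mask (fun i => R (E.p i - 3 * r)) (fun j => Q (E.p j - 3 * l)) E.d *
      mask (fun i => Q (E.p i - 3 * l)) (fun j => P (E.p j - 3 * k)) E.d) i j =
      if R (E.p i - 3 * r) ∧ P (E.p j - 3 * k) then (E.d * E.d) i j else 0 := by
    rw [Matrix.mul_apply]
    unfold mask
    split_ifs with h0
    · rw [Matrix.mul_apply]
      refine Finset.sum_congr rfl fun t _ => ?_
      by_cases ht : Q (E.p t - 3 * l)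
      · rw [if_pos ⟨h0.1, ht⟩, if_pos ⟨ht, h0.2⟩]
      · rw [if_neg (fun h' => ht h'.2), zero_mul]
        by_cases h2 : E.p t - 3 * l + 2 ≤ E.p j - 3 * k
        · by_cases h3 : E.p i - 3 * r + 2 ≤ E.p t - 3 * l
          · exact absurd (hP _ _ _ h3 h2 h0.2 h0.1) ht
          · rw [d_zero hE h' i t h3, zero_mul]
        · rw [d_zero hE h t j h2, mul_zero]
    · refine Finset.sum_eq_zero fun t _ => ?_
      by_cases hi : R (E.p i - 3 * r)
      · have hj : ¬ P (E.p j - 3 * k) := fun h' => h0 ⟨hi, h'⟩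
        exact mul_eq_zero_of_right _ (if_neg fun h' => hj h'.2)
      · exact mul_eq_zero_of_left (if_neg fun h' => hi h'.1) _
  rw [h1]
  split_ifs
  · rw [E.sq, Matrix.smul_apply, smul_eq_mul]
    exact dvd_mul_right _ _
  · exact dvd_zero _

/-- the complex of a position dependent selection -/
noncomputable def TQ {E : GMF W n} (hE : MinF E) (P : ℤ → ℤ → Prop) [∀ k, DecidablePred (P k)]
    (hP : Cv P) : CochainComplex (GA W) ℤ where
  X k := TX E (P k) k
  d k l := if h : k + 1 = l then Qd E (P k) (P l) k l h else 0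
  shape k l h := dif_neg h
  d_comp_d' k l r h h' := by
    rw [dif_pos (show k + 1 = l from h), dif_pos (show l + 1 = r from h')]
    exact Qd_Qd hE _ _ _ (fun x y z => hP k l r x y z h h') k l r _ _

theorem TQ_d {E : GMF W n} (hE : MinF E) (P : ℤ → ℤ → Prop) [∀ k, DecidablePred (P k)]
    (hP : Cv P) (k l : ℤ) (h : k + 1 = l) : (TQ hE P hP).d k l = Qd E (P k) (P l) k l h :=
  dif_pos h

omit [FrOK W] in
theorem dmask_mul (R Q : Fin n → Prop) [DecidablePred R] [DecidablePred Q]
    (M : Matrix (Fin n) (Fin n) (MvPolynomial (Fin 6) ℂ)) :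
    mask R Q (1 : Matrix (Fin n) (Fin n) (MvPolynomial (Fin 6) ℂ)) * M =
      fun i j => if R i ∧ Q i then M i j else 0 := by
  ext1 i j
  rw [Matrix.mul_apply, Finset.sum_eq_single i]
  · unfold mask
    rw [Matrix.one_apply_eq]
    split_ifs <;> simp
  · intro t _ ht
    unfold mask
    rw [Matrix.one_apply_ne ht.symm, ite_self, zero_mul]
  · intro h
    exact absurd (Finset.mem_univ i) h

omit [FrOK W] in
theorem mul_dmask (R Q : Fin n → Prop) [DecidablePred R] [DecidablePred Q]
    (M : Matrix (Fin n) (Fin n) (MvPolynomial (Fin 6) ℂ)) :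
    M * mask R Q (1 : Matrix (Fin n) (Fin n) (MvPolynomial (Fin 6) ℂ)) =
      fun i j => if R j ∧ Q j then M i j else 0 := by
  ext1 i j
  rw [Matrix.mul_apply, Finset.sum_eq_single j]
  · unfold mask
    rw [Matrix.one_apply_eq]
    split_ifs <;> simp
  · intro t _ ht
    unfold mask
    rw [Matrix.one_apply_ne ht, ite_self, mul_zero]
  · intro h
    exact absurd (Finset.mem_univ j) h

theorem prj_Qd {E : GMF W n} (hE : MinF E) (P P' Q Q' : ℤ → Prop) [DecidablePred P]
    [DecidablePred P'] [DecidablePred Q] [DecidablePred Q'] (k l : ℤ) (h : k + 1 = l)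
    (hPQ : ∀ x y, y + 2 ≤ x → P x → Q' y → (P' y ↔ Q x)) :
    prj E P Q k ≫ Qd E Q Q' k l h = Qd E P P' k l h ≫ prj E P' Q' l := by
  refine (matA_comp W _ _ _ _).trans (Eq.trans ?_ (matA_comp W _ _ _ _).symm)
  refine matA_congr W _ _ ?_
  rw [dmask_mul, mul_dmask]
  ext1 i j
  unfold mask
  by_cases hx : E.p i - 3 * l + 2 ≤ E.p j - 3 * k
  · have h1 := hPQ _ _ hx
    by_cases hP : P (E.p j - 3 * k) <;> by_cases hQ : Q' (E.p i - 3 * l)
    · have h2 := h1 hP hQ
      by_cases h3 : P' (E.p i - 3 * l)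
      · simp [hP, hQ, h3, h2.1 h3]
      · have h4 : ¬ Q (E.p j - 3 * k) := fun h4 => h3 (h2.2 h4)
        simp [hP, hQ, h3, h4]
    all_goals simp [hP, hQ]
  · rw [d_zero hE h i j hx]
    simp

/-- maps between the complexes -/
noncomputable def TQm {E : GMF W n} (hE : MinF E) (P Q : ℤ → ℤ → Prop) [∀ k, DecidablePred (P k)]
    [∀ k, DecidablePred (Q k)] (hP : Cv P) (hQ : Cv Q)
    (h : ∀ k l x y, k + 1 = l → y + 2 ≤ x → P k x → Q l y → (P l y ↔ Q k x)) :
    TQ hE P hP ⟶ TQ hE Q hQ where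
  f k := prj E (P k) (Q k) k
  comm' k l hkl := by
    have h1 : k + 1 = l := hkl
    rw [TQ_d _ _ _ _ _ h1, TQ_d _ _ _ _ _ h1]
    exact prj_Qd hE _ _ _ _ k l h1 fun x y => h k l x y h1

/-- two out of three for a disjoint union of selections -/
theorem TQ_ext {E : GMF W n} (hE : MinF E) (P Q R : ℤ → ℤ → Prop) [∀ k, DecidablePred (P k)]
    [∀ k, DecidablePred (Q k)] [∀ k, DecidablePred (R k)] (hP : Cv P) (hQ : Cv Q) (hR : Cv R)
    (h1 : ∀ k l x y, k + 1 = l → y + 2 ≤ x → P k x → R l y → (P l y ↔ R k x))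
    (h2 : ∀ k l x y, k + 1 = l → y + 2 ≤ x → R k x → Q l y → (R l y ↔ Q k x))
    (h' : ∀ k a, P k a → Q k a → False) (h : ∀ k a, R k a ↔ (P k a ∨ Q k a))
    {I : DerivedCategory (Coh W) → Prop} (hI : TriCl I) (i1 : I ((QPi W).obj (TQ hE P hP)))
    (i3 : I ((QPi W).obj (TQ hE Q hQ))) : I ((QPi W).obj (TQ hE R hR)) := by
  let S : ShortComplex (CochainComplex (GA W) ℤ) :=
    ShortComplex.mk (TQm hE P R hP hR h1) (TQm hE R Q hR hQ h2) (by
      ext1 k
      exact prj_comp_zero E (P k) (R k) (Q k) (h' k) k)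
  let σ : ∀ k, (S.map (HomologicalComplex.eval (GA W) _ k)).Splitting := fun k =>
    { r := prj E (R k) (P k) k
      s := prj E (Q k) (R k) k
      f_r := prj_comp_self E (P k) (R k) (fun a ha => (h k a).2 (Or.inl ha)) k
      s_g := prj_comp_self E (Q k) (R k) (fun a ha => (h k a).2 (Or.inr ha)) k
      id := prj_add E (P k) (Q k) (R k) (h k) (h' k) k }
  have hS : (S.map ((piA W).mapHomologicalComplex (ComplexShape.up ℤ))).ShortExact := by
    refine HomologicalComplex.shortExact_of_degreewise_shortExact _ fun k => ?_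
    exact ((σ k).map (piA W)).shortExact
  exact H408.sesC₂ hI hS i1 i3

/-- a constant selection -/
noncomputable def TQiso {E : GMF W n} (hE : MinF E) (P : ℤ → Prop) [DecidablePred P] [Cvx P]
    (hP : Cv fun _ => P) : TQ hE (fun _ => P) hP ≅ T E P :=
  HomologicalComplex.Hom.isoOfComponents (fun _ => Iso.refl _) (fun k l hkl => by
    have h1 : k + 1 = l := hkl
    rw [TQ_d _ _ _ _ _ h1, T_d _ _ _ _ h1]
    exact (Category.id_comp _).trans (Category.comp_id _).symm)

/-- free modules are in the triangulated subcategory generated by their line bundles -/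
theorem sgFr {I : DerivedCategory (Coh W) → Prop} (hI : TriCl I) {ι : Type} [Fintype ι]
    (q : ι → ℤ) (hO : ∀ i (m : ℤ), q i = -2 * m → I (OD W m)) :
    I ((DerivedCategory.singleFunctor (Coh W) 0).obj ((piA W).obj (FrA W q))) := by
  have one : ∀ c : ℤ, (∀ m : ℤ, c = -2 * m → I (OD W m)) →
      I ((DerivedCategory.singleFunctor (Coh W) 0).obj
        ((piA W).obj (FrA W (fun _ : Fin 1 => c)))) := by
    intro c hc
    by_cases h : Even c
    · obtain ⟨m, hm⟩ := h
      have h1 := hc (-m) (by rw [hm]; ring)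
      have h2 : c = -2 * (-m) := by rw [hm]; ring
      rw [h2]
      exact h1
    · exact H408.sgZero W hI (H408.FrA.isZero_of_odd W _ fun _ => h)
  have key : ∀ (ι : Type) [Fintype ι], ∀ q : ι → ℤ, (∀ i (m : ℤ), q i = -2 * m → I (OD W m)) →
      I ((DerivedCategory.singleFunctor (Coh W) 0).obj ((piA W).obj (FrA W q))) := by
    intro ι hι
    refine Fintype.induction_empty_option
      (P := fun (ι : Type) [Fintype ι] => ∀ q : ι → ℤ, (∀ i (m : ℤ), q i = -2 * m → I (OD W m)) →
        I ((DerivedCategory.singleFunctor (Coh W) 0).obj ((piA W).obj (FrA W q)))) ?_ ?_ ?_ ι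
    · intro α β _ e h q hq
      let _ : Fintype α := Fintype.ofEquiv β e.symm
      obtain ⟨e'⟩ := H408.FrA.reindex W e q
      exact H408.sgIso W hI e' (h _ fun i => hq (e i))
    · intro q _
      exact H408.sgZero W hI (H408.FrA.isZero_of_odd W q fun i => i.elim)
    · intro α _ h q hq
      obtain ⟨f, g, w, ⟨s⟩⟩ := H408.FrA.split W q
      have hS := (s.map (piA W)).shortExact
      exact H408.ses₂ hI hS (one _ (hq none)) (h _ fun i => hq (some i))
  exact key ι q hO

end Vale.Agent.P287Z.O.N
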