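import Vale.Agent.P287Z.O.H443.Ex
import Vale.Agent.P287Z.O.N.Tq

/-! # Exactness of the complexes `T_{> 0}` of Koszul factorizations (block B11) -/

open CategoryTheory Limits MvPolynomial
open scoped symmDiff

namespace Vale.Agent.P287Z.O.H443

open V L H826

variable {W : R5} {ι : Type} [LinearOrder ι] [Fintype ι] {N : ℕ}

section vals

variable (E : GMF W N) (e : Finset ι ≃ Fin N) (c : ℤ) (l q : ι → R5)
  (hp : ∀ I, E.p (e I) = c - 1 * (I.card : ℤ)) (hd : ∀ I J, E.d (e J) (e I) = kz l q J I)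
  (P : ℤ → Prop) [DecidablePred P]

include hp hd

theorem mask_val2 (Q : ℤ → Prop) [DecidablePred Q] (k r : ℤ) (v : Fin N → R5)
    (hv : ∀ I : Finset ι, ¬ P (c - 1 * (I.card : ℤ) - 3 * k) → v (e I) = 0) (J : Finset ι) :
    (mask (fun i => Q (E.p i - 3 * r)) (fun j => P (E.p j - 3 * k)) E.d).mulVec v (e J) =
      if Q (c - 1 * (J.card : ℤ) - 3 * r) then kop l q (fun I => v (e I)) J else 0 := by
  rw [← kz_mulVec]
  unfold Matrix.mulVec dotProduct mask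
  rw [← e.sum_comp]
  by_cases h : Q (c - 1 * (J.card : ℤ) - 3 * r)
  · rw [if_pos h]
    refine Finset.sum_congr rfl fun I _ => ?_
    change (if Q (E.p (e J) - 3 * r) ∧ P (E.p (e I) - 3 * k) then E.d (e J) (e I) else 0) *
      v (e I) = kz l q J I * v (e I)
    rw [hp, hp, hd]
    by_cases h' : P (c - 1 * (I.card : ℤ) - 3 * k)
    · rw [if_pos ⟨h, h'⟩]
    · rw [hv I h', mul_zero, mul_zero]
  · rw [if_neg h]
    refine Finset.sum_eq_zero fun I _ => ?_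
    change (if Q (E.p (e J) - 3 * r) ∧ P (E.p (e I) - 3 * k) then E.d (e J) (e I) else 0) *
      v (e I) = 0
    rw [hp, hp, if_neg (fun h' => h h'.1), zero_mul]

end vals

section ex

variable {E : GMF W N} {e : Finset ι ≃ Fin N} {c : ℤ} (hc : c % 2 = 0) {l q : ι → R5}
  (hp : ∀ I, E.p (e I) = c - 1 * (I.card : ℤ)) (hd : ∀ I J, E.d (e J) (e I) = kz l q J I)
  (hl : ∀ a, (l a).IsHomogeneous 1) (hq : ∀ a, (q a).IsHomogeneous 2)
  (hW : W = ∑ a, l a * q a) (hW0 : W ≠ 0)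
  (HK : ∀ n : ℕ, 1 ≤ n → ∀ z : Finset ι → R5, (∀ I, I.card ≠ n → z I = 0) → kop l 0 z = 0 →
      ∃ y : Finset ι → R5, (∀ I, I.card ≠ n + 1 → y I = 0) ∧ kop l 0 y = z)
  {P₁ P₂ P₃ : ℤ → Prop} [DecidablePred P₁] [DecidablePred P₂] [DecidablePred P₃] [FrOK W]

include hc hp hd hl hq hW hW0 HK

/-- the image of the next differential, elementwise -/
theorem ex_core2 {n : ℕ} (hn : 1 ≤ n) {k₁ k₂ : ℤ} (h12 : k₁ + 1 = k₂) (hk : k₂ = -(n : ℤ))
    (hs1 : ∀ I : Finset ι, (I.card + n) % 2 = 0 → P₂ (c - 1 * (I.card : ℤ) - 3 * k₂) → I.card ≤ n)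
    (hs2 : ∀ I : Finset ι, (I.card + n) % 2 = 1 → I.card ≤ n + 1 →
      P₁ (c - 1 * (I.card : ℤ) - 3 * k₁)) (a : ℤ) (v : Fin N → R5)
    (hv : ∀ i, Hg (2 * a - qsel E P₂ k₂ i) (v i))
    (hdv : ∀ J : Finset ι, J.card + 1 ≤ n → W ∣ kop l q (fun I => v (e I)) J) :
    ∃ y : (TX E P₁ k₁).obj.obj ⟨a⟩, (O.N.Qd E P₁ P₂ k₁ k₂ h12).hom.app ⟨a⟩ y = FrO.mk W v hv := by
  have hv1 := T_val E e c hp P₂ k₂ a v hv
  have hz0 : ∀ I : Finset ι, n < I.card → v (e I) = 0 := by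
    intro I hI
    by_cases h : P₂ (c - 1 * (I.card : ℤ) - 3 * k₂)
    · refine hg_odd ?_ (hv1 I).2
      by_contra h2
      have := hs1 I (by omega) h
      omega
    · exact (hv1 I).1 h
  obtain ⟨y, hy0, hy1, hy2⟩ := shamash_gr hl hq (by rw [← hW]; exact hW0) HK n hn (2 * a - c)
    (by omega) (fun I => v (e I)) hz0 (fun I => by
      have := (hv1 I).2
      rw [hk] at this
      convert this using 1
      ring) (fun J hJ => by rw [← hW]; exact hdv J hJ)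
  have hy3 : ∀ I : Finset ι, ¬ P₁ (c - 1 * (I.card : ℤ) - 3 * k₁) → y I = 0 := by
    intro I hI
    by_cases h : (I.card + n) % 2 = 1
    · refine hy0 I ?_
      by_contra h2
      exact hI (hs2 I h (by omega))
    · exact hg_odd (by omega) (hy1 I)
  have hy' : ∀ i, Hg (2 * a - qsel E P₁ k₁ i) ((fun i => y (e.symm i)) i) := by
    intro i
    obtain ⟨I, rfl⟩ := e.surjective i
    simp only [Equiv.symm_apply_apply]
    unfold qsel
    rw [hp]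
    by_cases h : P₁ (c - 1 * (I.card : ℤ) - 3 * k₁)
    · rw [if_pos h]
      convert hy1 I using 1
      rw [show k₁ = -(n : ℤ) - 1 by omega]
      ring
    · rw [hy3 I h]
      exact isWeightedHomogeneous_zero _ _ _
  refine ⟨FrO.mk W (fun i => y (e.symm i)) hy', ?_⟩
  change (matO W _ (O.N.hgM_q E P₁ P₂ k₁ k₂ h12)).app ⟨a⟩ (FrO.mk W _ hy') = _
  rw [matO_mk, FrO.mk_eq]
  intro j
  obtain ⟨J, rfl⟩ := e.surjective j
  rw [mask_val2 E e c l q hp hd P₁ P₂ k₁ k₂ _ (fun I hI => by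
    rw [Equiv.symm_apply_apply]; exact hy3 I hI) J]
  simp only [Equiv.symm_apply_apply]
  by_cases h : P₂ (c - 1 * (J.card : ℤ) - 3 * k₂)
  · rw [if_pos h]
    by_cases hJ : J.card ≤ n
    · rw [hy2 J hJ, sub_self]
      exact dvd_zero _
    · rw [hz0 J (by omega), sub_zero]
      rw [kop_zero l q y J fun b => ?_]
      · exact dvd_zero _
      · have h1 : (J.card + n) % 2 ≠ 0 := fun h2 => hJ (hs1 J h2 h)
        refine hg_odd ?_ (hy1 (J ∆ {b}))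
        rcases card_sd J b with h3 | h3 <;> omega
  · rw [if_neg h, (hv1 J).1 h, sub_zero]
    exact dvd_zero _

/-- exactness at `-n` -/
theorem ex_at2 {n : ℕ} (hn : 1 ≤ n) {k₁ k₂ k₃ : ℤ} (h12 : k₁ + 1 = k₂) (h23 : k₂ + 1 = k₃)
    (hk : k₂ = -(n : ℤ))
    (hs0 : ∀ J : Finset ι, (J.card + n) % 2 = 1 → J.card + 1 ≤ n →
      P₃ (c - 1 * (J.card : ℤ) - 3 * k₃))
    (hs1 : ∀ I : Finset ι, (I.card + n) % 2 = 0 → P₂ (c - 1 * (I.card : ℤ) - 3 * k₂) → I.card ≤ n)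
    (hs2 : ∀ I : Finset ι, (I.card + n) % 2 = 1 → I.card ≤ n + 1 →
      P₁ (c - 1 * (I.card : ℤ) - 3 * k₁)) (a : ℤ) (x : (TX E P₂ k₂).obj.obj ⟨a⟩)
    (hx : (O.N.Qd E P₂ P₃ k₂ k₃ h23).hom.app ⟨a⟩ x = 0) :
    ∃ y : (TX E P₁ k₁).obj.obj ⟨a⟩, (O.N.Qd E P₁ P₂ k₁ k₂ h12).hom.app ⟨a⟩ y = x := by
  obtain ⟨v, hv, rfl⟩ := FrO.mk_surj W x
  refine ex_core2 hc hp hd hl hq hW hW0 HK hn h12 hk hs1 hs2 a v hv fun J hJ => ?_
  have hv1 := T_val E e c hp P₂ k₂ a v hv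
  by_cases hpar : (J.card + n) % 2 = 1
  · have h1 : (matO W _ (O.N.hgM_q E P₂ P₃ k₂ k₃ h23)).app ⟨a⟩ (FrO.mk W v hv) = 0 := hx
    rw [matO_mk, FrO.mk_eq_zero] at h1
    have h2 := h1 (e J)
    rwa [mask_val2 E e c l q hp hd P₂ P₃ k₂ k₃ _ (fun I hI => (hv1 I).1 hI) J,
      if_pos (hs0 J hpar hJ)] at h2
  · rw [kop_zero l q _ J fun b => ?_]
    · exact dvd_zero _
    · refine hg_odd ?_ (hv1 (J ∆ {b})).2
      rcases card_sd J b with h3 | h3 <;> omega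

end ex

end Vale.Agent.P287Z.O.H443
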