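import Vale.Agent.P287Z.O.H311.PhiSt

/-!
# `Hom(𝒪(a), F(E)[k]) = 0` for `0 ≤ a ≤ 2` (P287, block T1)
-/

set_option linter.unusedSectionVars false

open CategoryTheory Limits MvPolynomial Pretriangulated

namespace Vale.Agent.P287Z.O.N

open V L H409

variable {W : MvPolynomial (Fin 6) ℂ} {n : ℕ} [FrOK W]

variable (W) in
/-- the module `A(a)` -/
noncomputable abbrev Oa (a : ℤ) : GA W := FrA W (fun _ : Fin 1 => -2 * a)

variable (W) in
/-- `A(a)` in degree `0` in the homotopy category -/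
noncomputable abbrev Aa (a : ℤ) : HomotopyCategory (GA W) (ComplexShape.up ℤ) :=
  (HomotopyCategory.quotient (GA W) (ComplexShape.up ℤ)).obj
    ((HomologicalComplex.single (GA W) (ComplexShape.up ℤ) 0).obj (Oa W a))

/-- lifting along the differentials of `T` -/
theorem lift_TT' {s : ℤ} (_hs : 0 ≤ s) (hW : Hg 6 W) (hW0 : W ≠ 0) (E : GMF W n) (k l r : ℤ) (h : k + 1 = l)
    (h' : l + 1 = r) (a : Oa W s ⟶ TX E (fun _ => True) l)
    (ha : a ≫ Td E (fun _ => True) l r h' = 0) :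
    ∃ u : Oa W s ⟶ TX E (fun _ => True) k, u ≫ Td E (fun _ => True) k l h = a := by
  have hproj : Projective (Oa W s) := projSt W hW _
  have hex := acySt (W := W) hW hW0 E k l r h h'
  have h1 : (a : Oa W s ⟶ (TT E).X l) ≫ (TT E).d l r = 0 :=
    (congrArg (fun z => a ≫ z) (T_d E (fun _ => True) l r h')).trans ha
  refine ⟨hex.liftFromProjective (P := Oa W s) a h1, ?_⟩
  have h2 := hex.liftFromProjective_comp (P := Oa W s) a h1
  refine Eq.trans ?_ h2
  exact congrArg (fun z => hex.liftFromProjective (P := Oa W s) a h1 ≫ z)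
    (T_d E (fun _ => True) k l h).symm

/-- a map to `T^k` lands in the generators of degree `≤ 0` -/
theorem jj_factor' {s : ℤ} (hs : 0 ≤ s) (E : GMF W n) (k : ℤ) (u : Oa W s ⟶ TX E (fun _ => True) k) :
    (u ≫ jj E (fun _ => True) (· ≤ 2 * 0) k) ≫ jj E (· ≤ 2 * 0) (fun _ => True) k = u := by
  obtain ⟨M, hM, hMu⟩ := (matSt W (fun _ : Fin 1 => -2 * s)
    (qsel E (fun _ => True) k)).1 u
  have hneg : ∀ i j, ¬ (E.p i - 3 * k ≤ 2 * 0) → M i j = 0 := by
    intro i j hi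
    have h3 := hM i j
    rw [qsel_true] at h3
    exact hg_neg h3 (by linarith)
  subst hMu
  have h5 : (matA W M hM ≫ (jj E (fun _ => True) (· ≤ 2 * 0) k :
      FrA W (qsel E (fun _ => True) k) ⟶ FrA W (qsel E (· ≤ 2 * 0) k))) =
      matA W _ (hM.mul (hgM_j E (fun _ => True) (· ≤ 2 * 0) k)) := matA_comp W _ _ _ _
  have h6 : matA W _ (hM.mul (hgM_j E (fun _ => True) (· ≤ 2 * 0) k)) ≫
      (jj E (· ≤ 2 * 0) (fun _ => True) k :
        FrA W (qsel E (· ≤ 2 * 0) k) ⟶ FrA W (qsel E (fun _ => True) k)) =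
      matA W _ ((hM.mul (hgM_j E (fun _ => True) (· ≤ 2 * 0) k)).mul
          (hgM_j E (· ≤ 2 * 0) (fun _ => True) k)) := matA_comp W _ _ _ _
  refine (congrArg (fun z => z ≫ (jj E (· ≤ 2 * 0) (fun _ => True) k :
        FrA W (qsel E (· ≤ 2 * 0) k) ⟶ FrA W (qsel E (fun _ => True) k))) h5).trans
        (h6.trans ?_)
  refine matA_congr W _ _ ?_
  rw [dmask_mul, dmask_mul]
  ext1 i j
  by_cases hi : E.p i - 3 * k ≤ 2 * 0
  · exact (if_pos ⟨trivial, hi⟩).trans (if_pos ⟨hi, trivial⟩)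
  · exact (if_neg (fun h => hi h.2)).trans (hneg i j hi).symm

/-- lifting along the differentials of `T_{≤ 0}` -/
theorem lift_TL' {s : ℤ} (hs : 0 ≤ s) (hW : Hg 6 W) (hW0 : W ≠ 0) (E : GMF W n) (k l r : ℤ) (h : k + 1 = l)
    (h' : l + 1 = r) (g : Oa W s ⟶ TX E (· ≤ 2 * 0) l) (hg : g ≫ Td E (· ≤ 2 * 0) l r h' = 0) :
    ∃ u : Oa W s ⟶ TX E (· ≤ 2 * 0) k, u ≫ Td E (· ≤ 2 * 0) k l h = g := by
  have hj : ∀ k l (h : k + 1 = l), Td E (· ≤ 2 * 0) k l h ≫ jj E (· ≤ 2 * 0) (fun _ => True) l =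
      jj E (· ≤ 2 * 0) (fun _ => True) k ≫ Td E (fun _ => True) k l h := by
    intro k l h
    refine jj_Td E (· ≤ 2 * 0) (fun _ => True) k l h (fun x y h2 h3 _ => ?_)
    simp only [iff_true]
    omega
  have h1 : (g ≫ jj E (· ≤ 2 * 0) (fun _ => True) l) ≫ Td E (fun _ => True) l r h' = 0 := by
    rw [Category.assoc, ← hj, ← Category.assoc, hg, zero_comp]
  obtain ⟨u, hu⟩ := lift_TT' hs hW hW0 E k l r h h' _ h1
  refine ⟨u ≫ jj E (fun _ => True) (· ≤ 2 * 0) k, jj_mono E l _ _ ?_⟩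
  rw [← hu, Category.assoc, hj, ← Category.assoc, jj_factor' hs]

/-- chain maps from `𝒪[-l]` to `T_{≤ 0}` are null-homotopic -/
theorem null_TL' {s : ℤ} (hs : 0 ≤ s) (hW : Hg 6 W) (hW0 : W ≠ 0) (E : GMF W n) (l : ℤ)
    (φ : (CochainComplex.singleFunctor (GA W) l).obj (Oa W s) ⟶ TL E 0) :
    Nonempty (Homotopy φ 0) := by
  let e := HomologicalComplex.singleObjXSelf (ComplexShape.up ℤ) l (Oa W s)
  let g : Oa W s ⟶ TX E (· ≤ 2 * 0) l := e.inv ≫ φ.f l
  have hg : g ≫ Td E (· ≤ 2 * 0) l (l + 1) rfl = 0 := by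
    have h1 : φ.f l ≫ (TL E 0).d l (l + 1) = 0 := by
      have h2 := φ.comm l (l + 1)
      have h3 : ((CochainComplex.singleFunctor (GA W) l).obj (Oa W s)).d l (l + 1) = 0 :=
        HomologicalComplex.single_obj_d _ _ _ _ _
      rw [h3, zero_comp] at h2
      exact h2
    rw [T_d _ _ _ _ rfl] at h1
    refine (assocTX e.inv (φ.f l : _ ⟶ TX E (· ≤ 2 * 0) l) _).trans ?_
    exact (congrArg (fun z => e.inv ≫ z) h1).trans comp_zero
  obtain ⟨u, hu⟩ := lift_TL' hs hW hW0 E (l - 1) l (l + 1) (by lia) rfl g hg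
  refine null_of_lift φ u ?_
  rw [T_d _ _ _ _ (by lia)]
  exact hu

/-- no maps from shifts of `𝒪` to `T_{≤ 0}` in the homotopy category -/
theorem orth_TL' {s : ℤ} (hs : 0 ≤ s) (hW : Hg 6 W) (hW0 : W ≠ 0) (E : GMF W n) (m : ℤ)
    (f : (Aa W s)⟦m⟧ ⟶ (HomotopyCategory.quotient (GA W) (ComplexShape.up ℤ)).obj (TL E 0)) :
    f = 0 := by
  rw [← cancel_epi (shSingle (Oa W s) m).inv, comp_zero]
  obtain ⟨φ, hφ⟩ := (HomotopyCategory.quotient (GA W) (ComplexShape.up ℤ)).map_surjective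
    ((shSingle (Oa W s) m).inv ≫ f)
  rw [← hφ, HomotopyCategory.quotient_map_eq_zero_iff]
  exact null_TL' hs hW hW0 E (-m) φ

/-- maps from shifts of `𝒪` to `T_{≤ 0}` in the homotopy category and in the derived category -/
theorem bij_O' {s : ℤ} (hs : s ≤ 2) (hH : HomSt W) (hE : ExtSt W) (E : GMF W n) (m : ℤ) :
    Function.Bijective (fun f : (Aa W s)⟦m⟧ ⟶
      (HomotopyCategory.quotient (GA W) (ComplexShape.up ℤ)).obj (TL E 0) =>
        (qF W).map f) := by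
  have hsep : ∀ j : ℤ, Sep (fun _ : Fin 1 => -2 * s) (qsel E (· ≤ 2 * 0) j) := by
    intro j a b _ hb
    have h1 : E.p b - 3 * j ≤ 2 * 0 := even_qsel E (· ≤ 2 * 0) j b hb
    have h2 : qsel E (· ≤ 2 * 0) j b = E.p b - 3 * j := if_pos h1
    rw [h2]
    linarith
  have hX : CochainComplex.IsStrictlyLE
      ((HomologicalComplex.single (GA W) (ComplexShape.up ℤ) 0).obj (Oa W s)) 0 := by
    rw [CochainComplex.isStrictlyLE_iff]
    exact fun i hi => HomologicalComplex.isZero_single_obj_X _ _ _ _ (by lia)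
  have hmain : ∀ k : ℤ, Inj (qF W) (Aa W s)
      (((HomotopyCategory.quotient (GA W) (ComplexShape.up ℤ)).obj (TL E 0))⟦k⟧) ∧
      Sur (qF W) (Aa W s)
      (((HomotopyCategory.quotient (GA W) (ComplexShape.up ℤ)).obj (TL E 0))⟦k⟧) := by
    refine ffπ (piA W) ((HomologicalComplex.single (GA W) (ComplexShape.up ℤ) 0).obj (Oa W s))
      (TL E 0) 0 _ hX (TL_ge E 0) ?_ ?_
    · intro i j
      by_cases hi : i = 0
      · subst hi
        exact bij_of_iso (piA W) (HomologicalComplex.singleObjXSelf (ComplexShape.up ℤ) 0 (Oa W s))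
          (Y := (TL E 0).X j) (hH _ _ (hsep j))
      · have h0 := HomologicalComplex.isZero_single_obj_X (ComplexShape.up ℤ) 0 (Oa W s) i hi
        exact ⟨fun f g _ => h0.eq_of_src _ _,
          fun g => ⟨0, ((piA W).map_isZero h0).eq_of_src _ _⟩⟩
    · intro i j k hk f
      by_cases hi : i = 0
      · subst hi
        refine van_iso (C := Coh W) ((piA W).mapIso
          (HomologicalComplex.singleObjXSelf (ComplexShape.up ℤ) 0 (Oa W s))) (Iso.refl _) ?_ k hk f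
        exact hE _ _ (hsep j)
      · have h0 := HomologicalComplex.isZero_single_obj_X (ComplexShape.up ℤ) 0 (Oa W s) i hi
        exact (((DerivedCategory.singleFunctor (Coh W) 0).map_isZero
          ((piA W).map_isZero h0))).eq_of_src _ _
  exact (Inj.shiftl (hmain (-m)).1).bij (Sur.shiftl (hmain (-m)).2)

/-- comparison with `𝒪(s)` -/
noncomputable def qFO' (s : ℤ) : (qF W).obj (Aa W s) ≅ OD W s :=
  qFiso _ ≪≫ DerivedCategory.Q.mapIso
    ((HomologicalComplex.singleMapHomologicalComplex (piA W) (ComplexShape.up ℤ) 0).app (Oa W s)) ≪≫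
    ((DerivedCategory.singleFunctorIsoCompQ (Coh W) 0).app ((piA W).obj (Oa W s))).symm

/-- the image of Orlov's functor is orthogonal to `𝒪, 𝒪(1), 𝒪(2)` -/
theorem orth (hW : Hg 6 W) (hW0 : W ≠ 0) (hH : HomSt W) (hE : ExtSt W) {s : ℤ} (hs : 0 ≤ s)
    (hs' : s ≤ 2) (E : GMF W n) (m : ℤ) (f : (OD W s)⟦m⟧ ⟶ FD E) : f = 0 := by
  let e1 : (qF W).obj ((Aa W s)⟦m⟧) ≅ (OD W s)⟦m⟧ :=
    ((qF W).commShiftIso m).app _ ≪≫ (shiftFunctor _ m).mapIso (qFO' s)
  let e2 : (qF W).obj ((HomotopyCategory.quotient (GA W) (ComplexShape.up ℤ)).obj (TL E 0)) ≅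
    FD E := qFiso _
  obtain ⟨g, hg⟩ := (bij_O' hs' hH hE E m).2 (e1.hom ≫ f ≫ e2.inv)
  have h1 : e1.hom ≫ f ≫ e2.inv = 0 := by
    rw [← hg, orth_TL' hs hW hW0 E m g]
    exact Functor.map_zero _ _ _
  rw [← cancel_epi e1.hom, ← cancel_mono e2.inv, Category.assoc, h1, comp_zero, zero_comp]

end Vale.Agent.P287Z.O.N
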